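import Vale.Agent.P235.LL.Rows
import Vale.Agent.P235.H538.Cost

/-! P235, LL: row COST = (7) along the recursion (helper86), from helper538's Bellman inequality
`cost_move`. -/

namespace Vale.Agent.P235.LL.H86

open Vale.Agent.P235 Vale.Agent.P235.LL Finset

section Sums

theorem sum_Icc_one (f : ℕ → ℝ) (m : ℕ) : ∑ j ∈ Icc 1 m, f j = ∑ j ∈ range m, f (j + 1) := by
  induction m with
  | zero => simp
  | succ m ih => rw [Finset.sum_Icc_succ_top (by omega), ih, sum_range_succ]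

end Sums

variable {V : Type} {G : SimpleGraph V} {ℓ : Sym2 V → ℝ} {K : ℝ}

theorem not_mem_vis {D : Dom V} {k : Fin 3 × Bool} {j : ℕ} {v : V} :
    v ∉ D.vis k (j + 1) ↔ v ∈ D.U ∧ 2 ^ (j + 1) * D.s k v < 1 := by
  simp only [Dom.vis, Set.mem_ofPred_eq, not_forall, not_and, not_le]
  constructor
  · rintro ⟨h, h'⟩
    exact ⟨h, h' (by omega)⟩
  · rintro ⟨h, h'⟩
    exact ⟨h, fun _ => h'⟩

theorem mem_vis_of_not_mem {D : Dom V} (k : Fin 3 × Bool) (j : ℕ) {v : V} (h : v ∉ D.U) :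
    v ∈ D.vis k j := fun h' => absurd h' h

theorem sl_comm (D : Dom V) (k : Fin 3 × Bool) (x y : V) : D.sl k x y = D.sl k y x := by
  unfold Dom.sl
  by_cases hx : x ∈ D.U <;> by_cases hy : y ∈ D.U <;> simp [hx, hy, min_comm]

theorem sl_nonneg {D : Dom V} (hD : IsDom G ℓ D) (k : Fin 3 × Bool) (x y : V) :
    0 ≤ D.sl k x y := by
  have h1 := hD.s0 k x
  have h2 := hD.s0 k y
  unfold Dom.sl
  split_ifs
  · exact le_min h1 h2
  · exact h1
  · exact h2
  · norm_num

theorem sl_le_one {D : Dom V} (hD : IsDom G ℓ D) (k : Fin 3 × Bool) (x y : V) :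
    D.sl k x y ≤ 1 := by
  have h1 := hD.s1 k x
  have h2 := hD.s1 k y
  unfold Dom.sl
  split_ifs
  · exact (min_le_left _ _).trans h1
  · exact h1
  · exact h2
  · norm_num

theorem sl_le_left {D : Dom V} (k : Fin 3 × Bool) {x y : V} (hx : x ∈ D.U) :
    D.sl k x y ≤ D.s k x := by
  unfold Dom.sl
  rw [if_pos hx]
  split_ifs
  · exact min_le_left _ _
  · exact le_rfl

/-- the slope is the slope of an endpoint in `U` -/
theorem sl_eq {D : Dom V} (k : Fin 3 × Bool) {x y : V} (h : x ∈ D.U ∨ y ∈ D.U) :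
    (x ∈ D.U ∧ D.sl k x y = D.s k x) ∨ (y ∈ D.U ∧ D.sl k x y = D.s k y) := by
  unfold Dom.sl
  by_cases hx : x ∈ D.U <;> by_cases hy : y ∈ D.U
  · simp only [hx, hy, if_true, true_and]
    exact min_choice _ _
  · simp [hx, hy]
  · simp [hx, hy]
  · exact absurd h (by simp [hx, hy])

theorem two_pow_mul (j : ℕ) : (2 : ℝ) ^ j * (1 / 2) ^ j = 1 := by
  rw [← mul_pow]; norm_num

theorem alive_of_lt {D : Dom V} {k : Fin 3 × Bool} {x y : V} {j : ℕ} (h : x ∈ D.U ∨ y ∈ D.U)
    (hs : D.sl k x y < (1 / 2) ^ (j + 1)) : x ∉ D.vis k (j + 1) ∨ y ∉ D.vis k (j + 1) := by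
  have h2 := two_pow_mul (j + 1)
  have hp : (0 : ℝ) < 2 ^ (j + 1) := by positivity
  rcases sl_eq k h with ⟨hx, he⟩ | ⟨hx, he⟩
  · left
    rw [not_mem_vis]
    refine ⟨hx, ?_⟩
    rw [← he, ← h2]
    exact mul_lt_mul_of_pos_left hs hp
  · right
    rw [not_mem_vis]
    refine ⟨hx, ?_⟩
    rw [← he, ← h2]
    exact mul_lt_mul_of_pos_left hs hp

theorem dead_of_le {D : Dom V} {k : Fin 3 × Bool} {x y : V} {j : ℕ} (hj : 1 ≤ j)
    (hs : (1 / 2) ^ j ≤ D.sl k x y) : x ∈ D.vis k j ∧ y ∈ D.vis k j := by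
  have h2 := two_pow_mul j
  have hp : (0 : ℝ) < 2 ^ j := by positivity
  have key : ∀ u v : V, (1 / 2) ^ j ≤ D.sl k u v → u ∈ D.vis k j := by
    intro u v huv hu
    refine ⟨hj, ?_⟩
    have h3 := huv.trans (sl_le_left k hu)
    rw [← h2]
    exact mul_le_mul_of_nonneg_left h3 hp.le
  exact ⟨key x y hs, key y x (by rw [sl_comm]; exact hs)⟩

theorem Jm_set [Finite V] (D : Dom V) (k : Fin 3 × Bool) :
    D.Jm k ∈ {j | 1 ≤ j ∧ ∀ v ∈ D.U, 0 < D.s k v → 1 ≤ 2 ^ j * D.s k v} := by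
  refine Nat.sInf_mem ?_
  have h1 : ∀ v : V, ∃ j : ℕ, 0 < D.s k v → 1 ≤ (2 : ℝ) ^ j * D.s k v := by
    intro v
    by_cases hv : 0 < D.s k v
    · obtain ⟨j, hj⟩ := exists_pow_lt_of_lt_one hv (by norm_num : (1 / 2 : ℝ) < 1)
      refine ⟨j, fun _ => ?_⟩
      rw [← two_pow_mul j]
      exact mul_le_mul_of_nonneg_left hj.le (by positivity)
    · exact ⟨0, fun h => absurd h hv⟩
  choose f hf using h1
  obtain ⟨N, hN⟩ := Finite.exists_le f
  refine ⟨N + 1, by omega, fun v _ hv => (hf v hv).trans ?_⟩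
  refine mul_le_mul_of_nonneg_right ?_ hv.le
  exact pow_le_pow_right₀ (by norm_num) ((hN v).trans (Nat.le_succ N))

theorem one_le_Jm [Finite V] (D : Dom V) (k : Fin 3 × Bool) : 1 ≤ D.Jm k := (Jm_set D k).1

theorem Jm_spec [Finite V] {D : Dom V} (hD : IsDom G ℓ D) (k : Fin 3 × Bool) {x y : V}
    (h : x ∈ D.U ∨ y ∈ D.U) : D.sl k x y = 0 ∨ (1 / 2) ^ D.Jm k ≤ D.sl k x y := by
  have h2 := two_pow_mul (D.Jm k)
  have hp : (0 : ℝ) < 2 ^ D.Jm k := by positivity
  have key : ∀ v ∈ D.U, D.s k v = 0 ∨ (1 / 2) ^ D.Jm k ≤ D.s k v := by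
    intro v hv
    rcases eq_or_lt_of_le (hD.s0 k v) with h0 | h0
    · exact Or.inl h0.symm
    · right
      have := (Jm_set D k).2 v hv h0
      rw [← h2] at this
      exact le_of_mul_le_mul_left this hp
  rcases sl_eq k h with ⟨hx, he⟩ | ⟨hx, he⟩
  · rw [he]; exact key x hx
  · rw [he]; exact key y hx

theorem mass_eq {D : Dom V} {k : Fin 3 × Bool} {j : ℕ} (hj : j < D.Jm k) :
    D.mass k j = H538.law (D.Jm k) (j + 1) := by
  unfold Dom.mass H538.law H538.qq
  by_cases h : j + 1 = D.Jm k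
  · rw [if_pos h, if_neg (by omega)]; simp
  · rw [if_neg h, if_pos (by omega)]
    simp only [Nat.add_sub_cancel]
    norm_num

section Child

variable {S : Sys G ℓ K} {D : Dom V} {k : Fin 3 × Bool} {j : ℕ}

theorem ch_spec (hD : S.Good D) {x : V} (hx : x ∉ D.vis k (j + 1)) :
    S.Good (S.ch D k j x) ∧ (S.ch D k j x).U = compSet G (D.vis k (j + 1)) x := by
  have h := S.child D hD k j x hx
  unfold Sys.ch Sys.chS
  rw [dif_pos h]
  exact ⟨h.choose_spec.1, h.choose_spec.2.1⟩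

theorem mem_comps [Finite V] {W : Set V} : W ∈ Sys.comps G D k j ↔
    ∃ x, x ∉ D.vis k (j + 1) ∧ W = compSet G (D.vis k (j + 1)) x := by
  unfold Sys.comps
  rw [Set.Finite.mem_toFinset, Set.mem_ofPred_eq]

theorem chS_spec [Finite V] (hD : S.Good D) {W : Set V} (hW : W ∈ Sys.comps G D k j) :
    S.Good (S.chS D k j W) ∧ (S.chS D k j W).U = W := by
  obtain ⟨x, hx, rfl⟩ := mem_comps.1 hW
  exact ch_spec hD hx

theorem not_mem_of_comps [Finite V] {W : Set V} (hW : W ∈ Sys.comps G D k j) {a : V}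
    (ha : a ∈ D.vis k (j + 1)) : a ∉ W := by
  obtain ⟨x, hx, rfl⟩ := mem_comps.1 hW
  exact fun h => (ReachOff.right h) ha

theorem compSet_congr {X : Set V} {u v : V} (h : ReachOff G X u v) :
    compSet G X u = compSet G X v := by
  ext x
  exact ⟨fun hx => h.symm.trans hx, fun hx => h.trans hx⟩

end Child

section Sig

variable [Finite V] {C' C c c1 : ℝ} {S : Sys G ℓ K}
  {st mv : Dom V → Fin 3 × Bool → ℕ → V → V → ℝ}

theorem sig_zero (M : Maps G ℓ C' C c c1 S st mv) : ∀ (n : ℕ) (D : Dom V), S.Good D →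
    ∀ a b, a ∉ D.U → b ∉ D.U → S.sig st mv n D a b = 0 := by
  intro n
  induction n with
  | zero => intro D _ a b _ _; rfl
  | succ n ih =>
    intro D hD a b ha hb
    show (∑ k, 1 / 6 * ∑ j ∈ range (D.Jm k), ((15 / 16) ^ j * st D k j a b +
      D.mass k j * (mv D k j a b + ∑ W ∈ Sys.comps G D k j,
        S.sig st mv n (S.chS D k j W) a b)) : ℝ) = 0
    refine sum_eq_zero fun k _ => ?_
    have h0 : ∀ j ∈ range (D.Jm k), ((15 / 16) ^ j * st D k j a b +
      D.mass k j * (mv D k j a b + ∑ W ∈ Sys.comps G D k j,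
        S.sig st mv n (S.chS D k j W) a b) : ℝ) = 0 := by
      intro j _
      rw [(M.st D hD k j).zero a (mem_vis_of_not_mem k j ha) b (mem_vis_of_not_mem k j hb),
        (M.mv D hD k j).zero a ha b hb]
      rw [sum_eq_zero (s := Sys.comps G D k j)]
      · ring
      · intro W hW
        obtain ⟨h1, h2⟩ := chS_spec hD hW
        refine ih _ h1 a b ?_ ?_
        · rw [h2]; exact not_mem_of_comps hW (mem_vis_of_not_mem k (j + 1) ha)
        · rw [h2]; exact not_mem_of_comps hW (mem_vis_of_not_mem k (j + 1) hb)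
    rw [sum_eq_zero h0, mul_zero]

/-- both endpoints visible: no child sees the edge -/
theorem comps_zero (M : Maps G ℓ C' C c c1 S st mv) (n : ℕ) {D : Dom V} (hD : S.Good D)
    {k : Fin 3 × Bool} {j : ℕ} {x y : V} (hx : x ∈ D.vis k (j + 1)) (hy : y ∈ D.vis k (j + 1)) :
    ∑ W ∈ Sys.comps G D k j, S.sig st mv n (S.chS D k j W) x y = 0 := by
  refine sum_eq_zero fun W hW => ?_
  obtain ⟨h1, h2⟩ := chS_spec hD hW
  refine sig_zero M n _ h1 x y ?_ ?_
  · rw [h2]; exact not_mem_of_comps hW hx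
  · rw [h2]; exact not_mem_of_comps hW hy

/-- only the child which contains `z` sees the edges at `z` -/
theorem comps_single (M : Maps G ℓ C' C c c1 S st mv) (n : ℕ) {D : Dom V} (hD : S.Good D)
    {k : Fin 3 × Bool} {j : ℕ} {x y z : V} (h : G.Adj x y) (hz : z = x ∨ z = y)
    (hzv : z ∉ D.vis k (j + 1)) :
    ∑ W ∈ Sys.comps G D k j, S.sig st mv n (S.chS D k j W) x y =
      S.sig st mv n (S.ch D k j z) x y := by
  have hx : ∀ u : V, (u = x ∨ u = y) → u ∉ D.vis k (j + 1) →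
      ReachOff G (D.vis k (j + 1)) z u := by
    intro u hu huv
    rcases hz with rfl | rfl <;> rcases hu with rfl | rfl
    · exact ReachOff.refl hzv
    · exact ReachOff.adj hzv huv h
    · exact ReachOff.adj hzv huv h.symm
    · exact ReachOff.refl hzv
  rw [sum_eq_single (compSet G (D.vis k (j + 1)) z)]
  · rfl
  · intro W hW hne
    obtain ⟨h1, h2⟩ := chS_spec hD hW
    obtain ⟨u, hu, rfl⟩ := mem_comps.1 hW
    have key : ∀ v : V, (v = x ∨ v = y) → v ∉ (S.chS D k j (compSet G (D.vis k (j + 1)) u)).U := by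
      intro v hv
      rw [h2]
      intro hv'
      have hv2 : ReachOff G (D.vis k (j + 1)) u v := hv'
      have h3 := hx v hv hv2.right
      exact hne (compSet_congr (hv2.trans h3.symm))
    exact sig_zero M n _ h1 x y (key x (Or.inl rfl)) (key y (Or.inr rfl))
  · intro hn
    exact absurd (mem_comps.2 ⟨z, hzv, rfl⟩) hn

/-- the potential -/
theorem sig_le (hC : 1 ≤ C) (hℓ : ∀ e ∈ G.edgeSet, 0 < ℓ e)
    (M : Maps G ℓ C' C c c1 S st mv) (n : ℕ) : ∀ D, S.Good D → ∀ x y, G.Adj x y →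
    (x ∈ D.U ∨ y ∈ D.U) → S.sig st mv n D x y ≤
      (105 * max C' C - 17 * max C' C * ∑ k, D.sl k x y ^ ((1 : ℝ) / 8)) * ℓ s(x, y) := by
  have hM0 : (1 : ℝ) ≤ max C' C := hC.trans (le_max_right _ _)
  have hCM : C ≤ max C' C := le_max_right _ _
  have hC'M : C' ≤ max C' C := le_max_left _ _
  generalize max C' C = C0 at hM0 hCM hC'M ⊢
  induction n with
  | zero =>
    intro D hD x y hxy _
    have hl := hℓ _ (G.mem_edgeSet.mpr hxy)
    have h1 : ∑ k, D.sl k x y ^ ((1 : ℝ) / 8) ≤ ∑ k : Fin 3 × Bool, (1 : ℝ) :=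
      sum_le_sum fun k _ => Real.rpow_le_one (sl_nonneg (S.dom D hD) k x y)
        (sl_le_one (S.dom D hD) k x y) (by norm_num)
    have h2 : ∑ k : Fin 3 × Bool, (1 : ℝ) = 6 := by simp
    rw [h2] at h1
    show (0 : ℝ) ≤ _
    refine mul_nonneg ?_ hl.le
    nlinarith
  | succ n ih =>
    intro D hD x y hxy hU
    have hl := hℓ _ (G.mem_edgeSet.mpr hxy)
    have hdom := S.dom D hD
    have hd := pathDist_adj hℓ hxy
    classical
    -- the endpoint whose component sees the edge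
    set z : Fin 3 × Bool → ℕ → V := fun k j => if x ∈ D.vis k (j + 1) then y else x with hz
    have hzxy : ∀ k j, z k j = x ∨ z k j = y := by
      intro k j
      simp only [hz]
      split_ifs
      · exact Or.inr rfl
      · exact Or.inl rfl
    have hzv : ∀ k j, D.sl k x y < (1 / 2) ^ (j + 1) → z k j ∉ D.vis k (j + 1) := by
      intro k j hs
      simp only [hz]
      split_ifs with h
      · exact (alive_of_lt hU hs).resolve_left (fun h' => h' h)
      · exact h
    have hal : ∀ k j, D.sl k x y < (1 / 2) ^ (j + 1) →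
        st D k j x y ≤ C' * (∑ i, (S.ch D k j (z k j)).sl i x y) * ℓ s(x, y) ∧
        mv D k j x y ≤ C * (∑ i, (S.ch D k j (z k j)).sl i x y + 2 ^ (j + 1) * D.sl k x y) *
          ℓ s(x, y) := by
      intro k j hs
      have h1 := hzv k j hs
      rcases hzxy k j with h2 | h2
      · rw [h2] at h1 ⊢
        exact ⟨(M.st D hD k j).alive x y hxy h1, (M.mv D hD k j).alive x y hxy h1⟩
      · rw [h2] at h1 ⊢
        rw [(M.st D hD k j).l1.symm x y, (M.mv D hD k j).l1.symm x y, sl_comm D k x y,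
          Sym2.eq_swap (a := x) (b := y)]
        simp only [sl_comm (S.ch D k j y) _ x y]
        exact ⟨(M.st D hD k j).alive y x hxy.symm h1, (M.mv D hD k j).alive y x hxy.symm h1⟩
    have hch : ∀ k j, D.sl k x y < (1 / 2) ^ (j + 1) → S.Good (S.ch D k j (z k j)) ∧
        z k j ∈ (S.ch D k j (z k j)).U := by
      intro k j hs
      obtain ⟨h1, h2⟩ := ch_spec (S := S) hD (hzv k j hs)
      refine ⟨h1, ?_⟩
      rw [h2]
      exact ReachOff.refl (hzv k j hs)
    set σ : Fin 3 × Bool → ℕ → ℝ := fun k j =>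
      if 1 ≤ j ∧ D.sl k x y < (1 / 2) ^ j then
        ∑ i, (S.ch D k (j - 1) (z k (j - 1))).sl i x y ^ ((1 : ℝ) / 8) else 0 with hσ
    have hσe : ∀ k j, D.sl k x y < (1 / 2) ^ (j + 1) → σ k (j + 1) =
        ∑ i, (S.ch D k j (z k j)).sl i x y ^ ((1 : ℝ) / 8) := by
      intro k j hs
      simp only [hσ]
      rw [if_pos ⟨by omega, hs⟩]
      simp only [Nat.add_sub_cancel]
    have hσs : ∀ k j, D.sl k x y < (1 / 2) ^ (j + 1) →
        ∑ i, (S.ch D k j (z k j)).sl i x y ≤ σ k (j + 1) := by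
      intro k j hs
      rw [hσe k j hs]
      obtain ⟨h1, _⟩ := hch k j hs
      exact sum_le_sum fun i _ => H538.le_rpow (sl_nonneg (S.dom _ h1) i x y)
        (sl_le_one (S.dom _ h1) i x y)
    have hσ0 : ∀ k j, 0 ≤ σ k j := by
      intro k j
      simp only [hσ]
      split_ifs with h
      · obtain ⟨i, rfl⟩ : ∃ i, j = i + 1 := ⟨j - 1, by omega⟩
        simp only [Nat.add_sub_cancel]
        obtain ⟨h1, _⟩ := hch k i h.2
        exact sum_nonneg fun i' _ => Real.rpow_nonneg (sl_nonneg (S.dom _ h1) i' x y) _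
      · exact le_rfl
    have hcard : Fintype.card (Fin 3 × Bool) = 6 := by simp
    have key := H538.cost_move (ι := Fin 3 × Bool) (s := fun k => D.sl k x y)
      (Jm := fun k => D.Jm k) (l := ℓ s(x, y)) (C := C0) (A := 105 * C0) (a := 17 * C0)
      (fun k => sl_nonneg hdom k x y) (fun k => sl_le_one hdom k x y) (fun k => one_le_Jm D k)
      (fun k => Jm_spec hdom k hU) hl (by linarith) le_rfl (by rw [hcard]; push_cast; linarith)
      σ (fun k j => st D k (j - 1) x y) (fun k j => mv D k (j - 1) x y)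
      (fun k j => ∑ W ∈ Sys.comps G D k (j - 1), S.sig st mv n (S.chS D k (j - 1) W) x y)
      hσ0 ?_ ?_ ?_ ?_ ?_ ?_ ?_
    · rw [hcard] at key
      refine le_trans (le_of_eq ?_) key
      show (∑ k, 1 / 6 * ∑ j ∈ range (D.Jm k), ((15 / 16) ^ j * st D k j x y +
        D.mass k j * (mv D k j x y + ∑ W ∈ Sys.comps G D k j,
          S.sig st mv n (S.chS D k j W) x y)) : ℝ) = _
      rw [← mul_sum]
      push_cast
      congr 1
      refine sum_congr rfl fun k _ => ?_
      rw [sum_Icc_one]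
      refine sum_congr rfl fun j hj => ?_
      rw [mem_range] at hj
      rw [mass_eq hj]
      simp only [Nat.add_sub_cancel, H538.qq]
    · -- alive, step
      intro k j hj1 _ hs
      obtain ⟨i, rfl⟩ : ∃ i, j = i + 1 := ⟨j - 1, by omega⟩
      simp only [Nat.add_sub_cancel]
      refine (hal k i hs).1.trans (mul_le_mul_of_nonneg_right ?_ hl.le)
      have h0 : 0 ≤ ∑ i', (S.ch D k i (z k i)).sl i' x y :=
        sum_nonneg fun i' _ => sl_nonneg (S.dom _ (hch k i hs).1) i' x y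
      exact mul_le_mul hC'M (hσs k i hs) h0 (by linarith)
    · -- alive, move
      intro k j hj1 _ hs
      obtain ⟨i, rfl⟩ : ∃ i, j = i + 1 := ⟨j - 1, by omega⟩
      simp only [Nat.add_sub_cancel]
      refine (hal k i hs).2.trans (mul_le_mul_of_nonneg_right ?_ hl.le)
      have h0 : 0 ≤ ∑ i', (S.ch D k i (z k i)).sl i' x y :=
        sum_nonneg fun i' _ => sl_nonneg (S.dom _ (hch k i hs).1) i' x y
      have h1 : 0 ≤ 2 ^ (i + 1) * D.sl k x y := mul_nonneg (by positivity) (sl_nonneg hdom k x y)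
      exact mul_le_mul hCM (by linarith [hσs k i hs]) (by linarith) (by linarith)
    · -- alive, future
      intro k j hj1 _ hs
      obtain ⟨i, rfl⟩ : ∃ i, j = i + 1 := ⟨j - 1, by omega⟩
      simp only [Nat.add_sub_cancel]
      rw [comps_single M n hD hxy (hzxy k i) (hzv k i hs), hσe k i hs]
      obtain ⟨h1, h2⟩ := hch k i hs
      refine ih _ h1 x y hxy ?_
      rcases hzxy k i with h3 | h3
      · left; rw [h3] at h2 ⊢; exact h2
      · right; rw [h3] at h2 ⊢; exact h2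
    · -- dead, step
      intro k j hj1 _ hs
      obtain ⟨i, rfl⟩ : ∃ i, j = i + 1 := ⟨j - 1, by omega⟩
      simp only [Nat.add_sub_cancel]
      obtain ⟨hx, hy⟩ := dead_of_le hj1 hs
      have h1 := (M.st D hD k i).vis x hx y hy
      nlinarith
    · -- dead before, step
      intro k j hj1 _ hs
      obtain ⟨hx, hy⟩ := dead_of_le (by omega) hs
      exact le_of_eq ((M.st D hD k (j - 1)).zero x hx y hy)
    · -- dead, move
      intro k j hj1 _ hs
      obtain ⟨i, rfl⟩ : ∃ i, j = i + 1 := ⟨j - 1, by omega⟩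
      simp only [Nat.add_sub_cancel]
      obtain ⟨hx, hy⟩ := dead_of_le hj1 hs
      have h1 := (M.mv D hD k i).vis x hx y hy
      have h2 : C * pathDist G ℓ x y ≤ C * ℓ s(x, y) := mul_le_mul_of_nonneg_left hd (by linarith)
      have h3 : C * ℓ s(x, y) ≤ C0 * ℓ s(x, y) := mul_le_mul_of_nonneg_right hCM hl.le
      linarith
    · -- dead, future
      intro k j hj1 _ hs
      obtain ⟨i, rfl⟩ : ∃ i, j = i + 1 := ⟨j - 1, by omega⟩
      simp only [Nat.add_sub_cancel]
      obtain ⟨hx, hy⟩ := dead_of_le hj1 hs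
      exact le_of_eq (comps_zero M n hD hx hy)

end Sig

/-- **row COST** -/
theorem rowCost : RowCost := by
  intro C' C c c1 _ hC
  have hM0 : (1 : ℝ) ≤ max C' C := hC.trans (le_max_right _ _)
  refine ⟨105 * max C' C, by linarith, ?_⟩
  intro V _ G ℓ K _ hℓ _ S st mv M n D hD x y hxy
  have hl := hℓ _ (G.mem_edgeSet.mpr hxy)
  by_cases hU : x ∈ D.U ∨ y ∈ D.U
  · refine (sig_le hC hℓ M n D hD x y hxy hU).trans ?_
    refine mul_le_mul_of_nonneg_right ?_ hl.le
    have h1 : 0 ≤ ∑ k, D.sl k x y ^ ((1 : ℝ) / 8) :=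
      sum_nonneg fun k _ => Real.rpow_nonneg (sl_nonneg (S.dom _ hD) k x y) _
    have h2 : 0 ≤ 17 * max C' C * ∑ k, D.sl k x y ^ ((1 : ℝ) / 8) := by positivity
    linarith
  · push Not at hU
    rw [sig_zero M n D hD x y hU.1 hU.2]
    positivity

end Vale.Agent.P235.LL.H86
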